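import Vale.Agent.P275NT.Iod
import Vale.Agent.P275NU.Props

/-!
P275 (helper32), block NT: the block TOPO.
-/

set_option linter.all false

open scoped Topology
open Filter Set Metric

noncomputable section

namespace Vale.Agent.P275NT

section Abs

variable {M E : Type} [TopologicalSpace M] [TopologicalSpace E] {lam : M → ℂ}

/-- the chart of a slice -/
def slc (e : OpenPartialHomeomorph M (ℂ × E)) (he : ∀ m ∈ e.source, (e m).1 = lam m) (c : ℂ)
    (y₀ : {y : M // lam y = c}) : OpenPartialHomeomorph {y : M // lam y = c} E := by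
  classical
  have hs : ∀ v, (c, v) ∈ e.target → lam (e.symm (c, v)) = c := fun v h => by
    rw [← he _ (e.map_target h), e.right_inv h]
  have hp : ∀ y : {y : M // lam y = c}, y.1 ∈ e.source → (c, (e y.1).2) = e y.1 := fun y h =>
    Prod.ext (by rw [he _ h, y.2]) rfl
  exact
  { toFun := fun y => (e y.1).2
    invFun := fun v => if h : (c, v) ∈ e.target then ⟨e.symm (c, v), hs v h⟩ else y₀
    source := {y | y.1 ∈ e.source}
    target := {v | (c, v) ∈ e.target}
    map_source' := fun y h => by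
      change (c, (e y.1).2) ∈ e.target
      rw [hp y h]
      exact e.map_source h
    map_target' := fun v h => by
      change (dite _ _ _ : {y : M // lam y = c}).1 ∈ e.source
      rw [dif_pos (show (c, v) ∈ e.target from h)]
      exact e.map_target h
    left_inv' := fun y h => by
      have a : (c, (e y.1).2) ∈ e.target := by
        rw [hp y h]
        exact e.map_source h
      rw [dif_pos a]
      exact Subtype.ext (by simp only [hp y h]; exact e.left_inv h)
    right_inv' := fun v h => by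
      rw [dif_pos (show (c, v) ∈ e.target from h)]
      simp only [e.right_inv (show (c, v) ∈ e.target from h)]
    open_source := e.open_source.preimage continuous_subtype_val
    open_target := e.open_target.preimage (continuous_const.prodMk continuous_id)
    continuousOn_toFun := continuous_snd.comp_continuousOn
      (e.continuousOn.comp continuous_subtype_val.continuousOn fun _ h => h)
    continuousOn_invFun := by
      refine Topology.IsInducing.subtypeVal.continuousOn_iff.2 ?_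
      refine (e.continuousOn_symm.comp (continuous_const.prodMk continuous_id).continuousOn
        fun _ h => h).congr fun v h => ?_
      simp only [Function.comp_apply, dif_pos (show (c, v) ∈ e.target from h), id] }

theorem slc_source (e : OpenPartialHomeomorph M (ℂ × E)) (he : ∀ m ∈ e.source, (e m).1 = lam m)
    (c : ℂ) (y₀ y : {y : M // lam y = c}) : y ∈ (slc e he c y₀).source ↔ y.1 ∈ e.source := Iff.rfl

theorem pre_punct {ε : ℝ} : IsPreconnected (ball (0 : ℂ) ε \ {0}) := by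
  have h : ball (0 : ℂ) ε \ {0} = (fun p : ℝ × ℝ => (p.1 : ℂ) * Complex.exp (p.2 * Complex.I)) ''
      (Ioo 0 ε ×ˢ univ) := by
    ext z
    constructor
    · rintro ⟨a, b⟩
      exact ⟨(‖z‖, z.arg), ⟨⟨norm_pos_iff.2 b, mem_ball_zero_iff.1 a⟩, trivial⟩,
        Complex.norm_mul_exp_arg_mul_I z⟩
    · rintro ⟨p, ⟨⟨a, b⟩, -⟩, rfl⟩
      refine ⟨mem_ball_zero_iff.2 ?_, mul_ne_zero (by exact_mod_cast a.ne') (Complex.exp_ne_zero _)⟩
      rwa [norm_mul, Complex.norm_exp_ofReal_mul_I, mul_one, Complex.norm_real,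
        Real.norm_of_nonneg a.le]
  rw [h]
  exact (isPreconnected_Ioo.prod isPreconnected_univ).image _ (by fun_prop)

theorem pre_star : IsPreconnected ({0}ᶜ : Set ℂ) :=
  (isConnected_compl_singleton_of_one_lt_rank (by simp) 0).isPreconnected

/-- the abstract form of the block -/
theorem topo_abs [T2Space M] [FirstCountableTopology M] (hl : Continuous lam) (sc : ℂˣ → M → M)
    (hsc : Continuous fun p : ℂˣ × M => sc p.1 p.2) (sc1 : ∀ m, sc 1 m = m)
    (scm : ∀ s t m, sc (s * t) m = sc s (sc t m)) (lsc : ∀ s m, lam (sc s m) = s * lam m)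
    (ch : ∀ y, ∃ (k : ℕ) (e : OpenPartialHomeomorph M (ℂ × (Fin k → ℝ))), y ∈ e.source ∧
      ∀ m ∈ e.source, (e m).1 = lam m)
    (lim : ∀ y, ∃ y₀, lam y₀ = 0 ∧ y₀ ∈ closure (range fun s : ℂˣ => sc s y))
    (Sg : C(ℂ × {y : M // lam y = 0}, M)) (ν : {y : M // lam y = 0} → {y : M // lam y = 1})
    (hS : ∀ c y, lam (Sg (c, y)) = c) (h0 : ∀ y, Sg (0, y) = y.1) (h1 : ∀ y, Sg (1, y) = (ν y).1)
    (hi : Function.Injective ν)
    (hp : ∀ (y : ℕ → {y : M // lam y = 0}) (y' : {y : M // lam y = 1}),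
      Tendsto (ν ∘ y) atTop (𝓝 y') →
      ∃ (σ : ℕ → ℕ) (y₀ : {y : M // lam y = 0}), StrictMono σ ∧ Tendsto (y ∘ σ) atTop (𝓝 y₀)) :
    IsHomeomorph ν := by
  classical
  have hc : Continuous ν := by
    refine Topology.IsInducing.subtypeVal.continuous_iff.2 ?_
    exact (show Continuous fun y => Sg (1, y) by fun_prop).congr h1
  choose k e hm he using ch
  have uq : ∀ y y', y' ∈ (e y).source → k y' = k y := fun y y' h => by
    simpa using finrank_eq_of_charts (e y') (e y) (hm y') h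
  have lc : IsLocallyConstant k := (IsLocallyConstant.iff_eventually_eq k).2 fun y =>
    mem_of_superset ((e y).open_source.mem_nhds (hm y)) fun y' h => uq y y' h
  have kk : ∀ y, k (ν y).1 = k y.1 := fun y => by
    rw [← h1, ← h0 y]
    exact (lc.comp_continuous (f := fun c : ℂ => Sg (c, y)) (by fun_prop)).apply_eq_of_preconnectedSpace
      1 0
  have ho : IsOpenMap ν := isOpenMap_of_charts hc hi fun y => by
    have a := hm (ν y).1
    have b := he (ν y).1
    generalize e (ν y).1 = e' at a b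
    revert e'
    rw [kk y]
    intro e' a b
    exact ⟨k y.1, slc (e y.1) (he y.1) 0 y, slc e' b 1 (ν y), hm y.1, a⟩
  have hcl : IsClosed (range ν) := isSeqClosed_iff_isClosed.1 fun u y' a b => by
    choose y hy using a
    obtain ⟨σ, y₀, c, d⟩ := hp y y' (by rwa [show ν ∘ y = u from funext hy])
    refine ⟨y₀, tendsto_nhds_unique ((hc.tendsto y₀).comp d) ?_⟩
    rw [show ν ∘ y ∘ σ = u ∘ σ from funext fun j => hy (σ j)]
    exact b.comp c.tendsto_atTop
  have hI : IsClopen (range ν) := ⟨hcl, ho.isOpen_range⟩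
  refine ⟨hc, ho, hi, fun y => ?_⟩
  have hφ : ∀ m (h : lam m ≠ 0), lam (sc (Units.mk0 _ h)⁻¹ m) = 1 := fun m h => by
    rw [lsc, Units.val_inv_eq_inv_val, Units.val_mk0, inv_mul_cancel₀ h]
  let φ : M → {y : M // lam y = 1} := fun m =>
    if h : lam m ≠ 0 then ⟨sc (Units.mk0 _ h)⁻¹ m, hφ m h⟩ else y
  have φc : ContinuousOn φ {m | lam m ≠ 0} := by
    refine continuousOn_iff_continuous_restrict.2
      (Topology.IsInducing.subtypeVal.continuous_iff.2 ?_)
    have a : Continuous fun m : {m | lam m ≠ 0} => Units.mk0 (lam m.1) m.2 :=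
      Units.isEmbedding_val₀.continuous_iff.2 (hl.comp continuous_subtype_val)
    refine (hsc.comp (a.inv.prodMk continuous_subtype_val)).congr fun m => ?_
    simp only [Function.comp_apply, restrict_apply, φ, dif_pos (show lam m.1 ≠ 0 from m.2)]
    rfl
  have φs : ∀ (s : ℂˣ) (m : {y : M // lam y = 1}), φ (sc s m.1) = m := fun s m => by
    have a : lam (sc s m.1) = s := by rw [lsc, m.2, mul_one]
    have b : lam (sc s m.1) ≠ 0 := a ▸ s.ne_zero
    refine Subtype.ext ?_
    simp only [φ, dif_pos b]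
    rw [show Units.mk0 _ b = s from Units.ext a, ← scm, inv_mul_cancel, sc1]
  obtain ⟨y₀, z₀, cl⟩ := lim y.1
  have A : ∀ c : ℂ, c ≠ 0 → φ (Sg (c, ⟨y₀, z₀⟩)) ∈ range ν := fun c hc0 => by
    refine (pre_star.image (fun c => φ (Sg (c, ⟨y₀, z₀⟩))) (φc.comp (f := fun c => Sg (c, ⟨y₀, z₀⟩))
      (by fun_prop) fun c a => by rw [mem_setOf_eq, hS]; exact a)).subset_isClopen hI
      ⟨ν ⟨y₀, z₀⟩, ⟨1, one_ne_zero, ?_⟩, mem_range_self _⟩ ⟨c, hc0, rfl⟩
    have := φs 1 (ν ⟨y₀, z₀⟩)
    rw [sc1] at this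
    simp only [h1, this]
  obtain ⟨ε, hε, hb⟩ := Metric.isOpen_iff.1 (e y₀).open_target _ ((e y₀).map_source (hm y₀))
  have q₀ : e y₀ y₀ = (0, (e y₀ y₀).2) := Prod.ext (by rw [he y₀ y₀ (hm y₀), z₀]) rfl
  rw [q₀, ← ball_prod_same] at hb
  set v₀ := (e y₀ y₀).2
  have hU : IsOpen ((e y₀).source ∩ e y₀ ⁻¹' (ball 0 ε ×ˢ ball v₀ ε)) :=
    (e y₀).isOpen_inter_preimage (isOpen_ball.prod isOpen_ball)
  have mU : y₀ ∈ (e y₀).source ∩ e y₀ ⁻¹' (ball 0 ε ×ˢ ball v₀ ε) :=
    ⟨hm y₀, by rw [mem_preimage, q₀]; exact ⟨mem_ball_self hε, mem_ball_self hε⟩⟩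
  have sub : (ball (0 : ℂ) ε \ {0}) ×ˢ ball v₀ ε ⊆ (e y₀).target :=
    (prod_mono diff_subset Subset.rfl).trans hb
  have pre : IsPreconnected ((fun w => φ ((e y₀).symm w)) '' ((ball (0 : ℂ) ε \ {0}) ×ˢ ball v₀ ε)) :=
    (pre_punct.prod (convex_ball v₀ ε).isPreconnected).image _
      (φc.comp ((e y₀).continuousOn_symm.mono sub) fun w a => by
        rw [mem_setOf_eq, ← he y₀ _ ((e y₀).map_target (sub a)), (e y₀).right_inv (sub a)]
        exact a.1.2)
  have mem : ∀ m ∈ (e y₀).source ∩ e y₀ ⁻¹' (ball 0 ε ×ˢ ball v₀ ε), lam m ≠ 0 →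
      φ m ∈ (fun w => φ ((e y₀).symm w)) '' ((ball (0 : ℂ) ε \ {0}) ×ˢ ball v₀ ε) :=
    fun m a b => ⟨e y₀ m, ⟨⟨a.2.1, fun c => b ((he y₀ m a.1).symm.trans c)⟩, a.2.2⟩, by
      simp only [(e y₀).left_inv a.1]⟩
  have ev : ∀ᶠ c in 𝓝[≠] (0 : ℂ), Sg (c, ⟨y₀, z₀⟩) ∈
      (e y₀).source ∩ e y₀ ⁻¹' (ball 0 ε ×ˢ ball v₀ ε) := by
    refine mem_nhdsWithin_of_mem_nhds
      ((show Continuous fun c : ℂ => Sg (c, ⟨y₀, z₀⟩) by fun_prop).continuousAt (hU.mem_nhds ?_))
    simpa only [h0] using mU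
  obtain ⟨c, c1, c2⟩ := (ev.and self_mem_nhdsWithin).exists
  obtain ⟨_, s1, s, rfl⟩ := mem_closure_iff.1 cl _ hU mU
  have := pre.subset_isClopen hI ⟨_, mem _ c1 (by rw [hS]; exact c2), A c c2⟩
    (mem _ s1 (by rw [lsc, y.2, mul_one]; exact s.ne_zero))
  rwa [φs] at this

end Abs

open Vale.Agent.P275NA (Cy)
open Vale.Agent.P275GC Vale.Agent.P275MO Vale.Agent.P275MB Vale.Agent.P275NU

variable {C : Type} [TopologicalSpace C] {A : At C} {n : ℕ} {l : Cy A ℂ} {τ : Ty n}

/-- the first coordinate of a chart is `λ` -/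
theorem chart_fst (K : Chart A l τ) {m : Mod A l τ} (h : m ∈ K.e.source) : (K.e m).1 = m.lam := by
  have a := K.e.map_source h
  rw [← K.lam _ a, ← lam_pt ⟨_, K.ob _ a⟩, ← K.symm _ a, K.e.left_inv h]

/-- the dimension of a chart at a point is well defined -/
theorem chart_D (K K' : Chart A l τ) {m : Mod A l τ} (h : m ∈ K.e.source) (h' : m ∈ K'.e.source) :
    K.D = K'.D := by
  have := finrank_eq_of_charts K.e K'.e h h'
  simp only [Module.finrank_prod, Module.finrank_pi_fintype, Complex.finrank_real_complex,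
    Finset.sum_const, Finset.card_univ, Fintype.card_fin, smul_eq_mul] at this
  omega

variable (A n l)

theorem topo : TOPO A n l := fun kur nice lim Sg ν hS h0 h1 hi hp => by
  obtain ⟨_, _, _⟩ := nice (P275Z.tauX n)
  refine topo_abs cont_lam sc cont_sc sc_one sc_mul lam_sc (fun y => ?_) lim Sg ν hS h0 h1 hi hp
  obtain ⟨K, hK⟩ := kur _ y
  exact ⟨_, K.e.transHomeomorph ((Homeomorph.refl ℂ).prodCongr (crd _).toHomeomorph), hK,
    fun m h => chart_fst K h⟩

end Vale.Agent.P275NT
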