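import Vale.Agent.P251.G.BrDeg

/-!
P275 (helper32), block NT: invariance of domain (the proof is that of `P073Z/A8a`), invariance of
dimension, open maps of topological manifolds.
-/

set_option linter.all false

open Set Metric Topology Filter MeasureTheory

namespace Vale.Agent.P275NT

open Vale.Agent.P251.G Vale.Agent.P205.TI.Deg

variable {n : ℕ}

/-- a map of the cube which is close to the identity on the boundary has a zero -/
theorem exists_zero {G : (Fin n → ℝ) → (Fin n → ℝ)} (hG : ContinuousOn G (closedBall 0 1))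
    (h : ∀ x ∈ sphere (0 : Fin n → ℝ) 1, ‖G x - x‖ < 1) : ∃ x ∈ closedBall 0 1, G x = 0 := by
  by_contra h0
  push Not at h0
  have hc : closure (ball (0 : Fin n → ℝ) 1) = closedBall 0 1 := closure_ball 0 one_ne_zero
  have h1 := degR_id_sub (W := ball (0 : Fin n → ℝ) 1) isBounded_ball isOpen_ball
    (mem_ball_self one_pos)
  have h2 := degR_empty_zero (W := ball (0 : Fin n → ℝ) 1) isBounded_ball isOpen_ball
    (hc ▸ hG) (hc ▸ h0)
  have h3 := degR_homotopy (f₀ := fun x => x - 0) (f₁ := G) (W := ball (0 : Fin n → ℝ) 1)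
    isOpen_ball isBounded_ball (by fun_prop) (hc ▸ hG) (by
      intro x hx t ht e
      rw [frontier_ball 0 one_ne_zero] at hx
      have h4 : x = -(t • (G x - x)) := by
        rw [eq_neg_iff_add_eq_zero, ← e]
        module
      have h5 : ‖x‖ = t * ‖G x - x‖ := by
        conv_lhs => rw [h4]
        rw [norm_neg, norm_smul, Real.norm_of_nonneg ht.1]
      rw [mem_sphere_zero_iff_norm.1 hx] at h5
      nlinarith [h x hx, ht.1, ht.2, norm_nonneg (G x - x)])
  rw [h1, h2] at h3
  exact one_ne_zero h3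

/-- the inverse of a continuous injection of a compact set is continuous -/
theorem continuousOn_invFunOn {X Y : Type} [TopologicalSpace X] [TopologicalSpace Y] [T2Space Y]
    [Nonempty X] {F : X → Y} {K : Set X} (hK : IsCompact K) (hc : ContinuousOn F K)
    (hi : InjOn F K) : ContinuousOn (Function.invFunOn F K) (F '' K) := by
  rw [continuousOn_iff_isClosed]
  intro t ht
  refine ⟨F '' (K ∩ t), ((hK.inter_right ht).image_of_continuousOn
    (hc.mono inter_subset_left)).isClosed, ?_⟩
  ext y
  constructor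
  · rintro ⟨h1, x, hx, rfl⟩
    rw [mem_preimage, hi.leftInvOn_invFunOn hx] at h1
    exact ⟨⟨x, ⟨hx, h1⟩, rfl⟩, x, hx, rfl⟩
  · rintro ⟨⟨x, hx, rfl⟩, h2⟩
    refine ⟨?_, h2⟩
    rw [mem_preimage, hi.leftInvOn_invFunOn hx.1]
    exact hx.2

theorem core {F : (Fin n → ℝ) → (Fin n → ℝ)} (hc : ContinuousOn F (closedBall 0 1))
    (hi : InjOn F (closedBall 0 1)) : F '' closedBall 0 1 ∈ 𝓝 (F 0) := by
  by_contra hn
  have h0 : (0 : Fin n → ℝ) ∈ closedBall (0 : Fin n → ℝ) 1 := mem_closedBall_self zero_le_one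
  obtain ⟨m, hm, hmb⟩ := exists_pos_lower_bound (isCompact_sphere (0 : Fin n → ℝ) 1)
    (f := fun x => F x - F 0) ((hc.mono sphere_subset_closedBall).sub continuousOn_const) (by
      intro x hx e
      have := hi (sphere_subset_closedBall hx) h0 (sub_eq_zero.1 e)
      rw [this] at hx
      simp at hx)
  set ε := m / 2 with hε
  have hε0 : 0 < ε := by positivity
  obtain ⟨c, hc1, hc2⟩ : ∃ c ∈ ball (F 0) ε, c ∉ F '' closedBall 0 1 := by
    by_contra h
    push Not at h
    exact hn (mem_of_superset (ball_mem_nhds _ hε0) h)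
  rw [mem_ball, dist_eq_norm] at hc1
  have hK : IsCompact (F '' closedBall 0 1 ∩ {y | ε ≤ ‖y - c‖}) :=
    ((isCompact_closedBall 0 1).image_of_continuousOn hc).inter_right
      (isClosed_le continuous_const (by fun_prop))
  set G := Function.invFunOn F (closedBall 0 1) with hG
  have hGc : ContinuousOn G (F '' closedBall 0 1 ∩ {y | ε ≤ ‖y - c‖}) :=
    (continuousOn_invFunOn (isCompact_closedBall 0 1) hc hi).mono inter_subset_left
  have hGF : ∀ x ∈ closedBall (0 : Fin n → ℝ) 1, G (F x) = x :=
    fun x hx => hi.leftInvOn_invFunOn hx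
  obtain ⟨δ, hδ, hδb⟩ := exists_pos_lower_bound hK hGc (by
    rintro _ ⟨⟨x, hx, rfl⟩, h1⟩ e
    rw [hGF x hx] at e
    rw [e, mem_ofPred_eq, norm_sub_rev] at h1
    exact lt_irrefl _ (h1.trans_lt hc1))
  have hδ' : 0 < min δ 1 / 2 := by positivity
  obtain ⟨P, hP, hPG⟩ := exists_smooth_approx hK hGc hδ'
  obtain ⟨a, ha1, ha2⟩ : ∃ a ∈ ball (0 : Fin n → ℝ) (min δ 1 / 2), a ∉ P '' sphere c ε := by
    by_contra h
    push Not at h
    have h1 : volume (P '' sphere c ε) = 0 :=
      addHaar_image_eq_zero_of_differentiableOn_of_addHaar_eq_zero volume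
        (hP.differentiable (by simp)).differentiableOn
        (Measure.addHaar_sphere_of_ne_zero volume c hε0.ne')
    exact (measure_ball_pos volume _ hδ').ne' (measure_mono_null h h1)
  rw [mem_ball_zero_iff] at ha1
  have hne : ∀ x ∈ closedBall (0 : Fin n → ℝ) 1, 0 < ‖F x - c‖ := by
    intro x hx
    rw [norm_pos_iff, sub_ne_zero]
    exact fun e => hc2 ⟨x, hx, e⟩
  have hfar : ∀ x ∈ closedBall (0 : Fin n → ℝ) 1, ε ≤ ‖F x - c‖ →
      ‖P (c + max (ε / ‖F x - c‖) 1 • (F x - c)) - a - x‖ < min δ 1 := by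
    intro x hx h
    rw [max_eq_right ((div_le_one (hne x hx)).2 h), one_smul, add_sub_cancel]
    have h1 := hPG (F x) ⟨⟨x, hx, rfl⟩, h⟩
    rw [hGF x hx] at h1
    have h2 : P (F x) - a - x = (P (F x) - x) - a := by abel
    rw [h2]
    linarith [norm_sub_le (P (F x) - x) a]
  obtain ⟨x, hx, hx0⟩ := exists_zero
    (G := fun x => P (c + max (ε / ‖F x - c‖) 1 • (F x - c)) - a) (by
      have h1 : ContinuousOn (fun x => F x - c) (closedBall 0 1) := hc.sub continuousOn_const
      have h2 : ContinuousOn (fun x => max (ε / ‖F x - c‖) 1) (closedBall 0 1) :=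
        (continuousOn_const.div h1.norm fun x hx => (hne x hx).ne').sup continuousOn_const
      exact (hP.continuous.comp_continuousOn (continuousOn_const.add (h2.smul h1))).sub
        continuousOn_const)
    (by
      intro x hx
      refine (hfar x (sphere_subset_closedBall hx) ?_).trans_le (min_le_right _ _)
      have h1 := hmb x hx
      have h2 : F x - F 0 = (F x - c) + (c - F 0) := by abel
      rw [h2] at h1
      linarith [norm_add_le (F x - c) (c - F 0)])
  by_cases h : ε ≤ ‖F x - c‖
  · have h1 := hfar x hx h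
    have h2 := hδb (F x) ⟨⟨x, hx, rfl⟩, h⟩
    rw [hGF x hx] at h2
    rw [hx0, zero_sub, norm_neg] at h1
    linarith [min_le_left δ 1]
  · refine ha2 ⟨_, ?_, sub_eq_zero.1 hx0⟩
    rw [mem_sphere_iff_norm, add_sub_cancel_left,
      max_eq_left ((one_le_div (hne x hx)).2 (not_le.1 h).le), norm_smul,
      Real.norm_of_nonneg (div_nonneg hε0.le (norm_nonneg _)), div_mul_cancel₀ _ (hne x hx).ne']
/-- invariance of domain -/
theorem iod {U : Set (Fin n → ℝ)} {f : (Fin n → ℝ) → (Fin n → ℝ)} (hU : IsOpen U)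
    (hc : ContinuousOn f U) (hi : InjOn f U) : IsOpen (f '' U) := by
  rw [isOpen_iff_mem_nhds]
  rintro _ ⟨x₀, hx₀, rfl⟩
  obtain ⟨r, hr, hb⟩ := nhds_basis_closedBall.mem_iff.1 (hU.mem_nhds hx₀)
  have hm : MapsTo (fun x : Fin n → ℝ => x₀ + r • x) (closedBall 0 1) U := by
    intro x hx
    refine hb ?_
    rw [mem_closedBall_zero_iff] at hx
    rw [mem_closedBall, dist_eq_norm, add_sub_cancel_left, norm_smul, Real.norm_of_nonneg hr.le]
    nlinarith
  have := core (F := fun x => f (x₀ + r • x)) (hc.comp (by fun_prop) hm) (by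
    intro x hx y hy e
    exact smul_right_injective _ hr.ne' (add_left_cancel (hi (hm hx) (hm hy) e)))
  simp only [smul_zero, add_zero] at this
  refine mem_of_superset this ?_
  rintro _ ⟨x, hx, rfl⟩
  exact ⟨_, hm hx, rfl⟩
/-- there is no continuous injection of an open set into a space of smaller dimension -/
theorem dim_le {k : ℕ} {U : Set (Fin n → ℝ)} {f : (Fin n → ℝ) → (Fin k → ℝ)} (hU : IsOpen U)
    (hne : U.Nonempty) (hc : ContinuousOn f U) (hi : InjOn f U) : n ≤ k := by
  by_contra h
  rw [not_le] at h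
  let j : (Fin k → ℝ) → (Fin n → ℝ) := fun v i => if e : (i : ℕ) < k then v ⟨i, e⟩ else 0
  have jc : Continuous j := continuous_pi fun i => by
    by_cases e : (i : ℕ) < k
    · simp only [j, dif_pos e]
      exact continuous_apply _
    · simp only [j, dif_neg e]
      exact continuous_const
  have ji : Function.Injective j := fun v w e => funext fun i => by
    have := congrFun e ⟨i, i.2.trans h⟩
    simpa only [j, dif_pos i.2] using this
  have ho := iod hU (f := j ∘ f) (jc.comp_continuousOn hc) (ji.comp_injOn hi)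
  obtain ⟨x, hx⟩ := hne
  obtain ⟨ε, hε, hb⟩ := Metric.isOpen_iff.1 ho _ (mem_image_of_mem _ hx)
  have hm : (j ∘ f) x + Pi.single (⟨k, h⟩ : Fin n) (ε / 2) ∈ ball ((j ∘ f) x) ε := by
    rw [mem_ball, dist_eq_norm, add_sub_cancel_left, Pi.norm_single, Real.norm_of_nonneg
      (by positivity)]
    linarith
  obtain ⟨y, -, hy⟩ := hb hm
  have := congrFun hy ⟨k, h⟩
  simp [j] at this
  linarith

variable {E F X Y : Type} [NormedAddCommGroup E] [NormedSpace ℝ E] [FiniteDimensional ℝ E]
  [NormedAddCommGroup F] [NormedSpace ℝ F] [FiniteDimensional ℝ F] [TopologicalSpace X]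
  [TopologicalSpace Y]

/-- linear coordinates -/
noncomputable def crd (E : Type) [NormedAddCommGroup E] [NormedSpace ℝ E] [FiniteDimensional ℝ E] :
    E ≃L[ℝ] (Fin (Module.finrank ℝ E) → ℝ) :=
  ContinuousLinearEquiv.ofFinrankEq (by simp)

theorem finrank_le_of_inj {U : Set E} {f : E → F} (hU : IsOpen U) (hne : U.Nonempty)
    (hc : ContinuousOn f U) (hi : InjOn f U) : Module.finrank ℝ E ≤ Module.finrank ℝ F := by
  obtain ⟨x, hx⟩ := hne
  refine dim_le (U := (crd E).symm ⁻¹' U) (f := fun v => crd F (f ((crd E).symm v)))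
    (hU.preimage (crd E).symm.continuous) ⟨crd E x, by simpa using hx⟩
    ((crd F).continuous.comp_continuousOn
      (hc.comp (crd E).symm.continuous.continuousOn fun _ a => a)) fun v a w b e => ?_
  exact (crd E).symm.injective (hi a b ((crd F).injective e))

/-- invariance of dimension -/
theorem finrank_eq_of_charts (e : OpenPartialHomeomorph X E) (e' : OpenPartialHomeomorph X F)
    {x : X} (h : x ∈ e.source) (h' : x ∈ e'.source) :
    Module.finrank ℝ E = Module.finrank ℝ F := by
  have a : e x ∈ (e.symm.trans e').source := by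
    rw [OpenPartialHomeomorph.trans_source]
    exact ⟨e.map_source h, by rw [mem_preimage, e.left_inv h]; exact h'⟩
  exact le_antisymm
    (finrank_le_of_inj (e.symm.trans e').open_source ⟨_, a⟩ (e.symm.trans e').continuousOn
      (e.symm.trans e').injOn)
    (finrank_le_of_inj (e.symm.trans e').open_target ⟨_, (e.symm.trans e').map_source a⟩
      (e.symm.trans e').symm.continuousOn (e.symm.trans e').symm.injOn)

/-- a continuous injection of manifolds of the same dimension is open -/
theorem isOpenMap_of_charts {f : X → Y} (hc : Continuous f) (hi : Function.Injective f)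
    (h : ∀ x, ∃ (k : ℕ) (e : OpenPartialHomeomorph X (Fin k → ℝ))
      (e' : OpenPartialHomeomorph Y (Fin k → ℝ)), x ∈ e.source ∧ f x ∈ e'.source) :
    IsOpenMap f := by
  refine isOpenMap_iff_nhds_le.2 fun x => le_map fun N hN => ?_
  obtain ⟨k, e, e', a, b⟩ := h x
  obtain ⟨N', hs, ho, hm⟩ := mem_nhds_iff.1 hN
  have hW : IsOpen (N' ∩ f ⁻¹' e'.source) := ho.inter (e'.open_source.preimage hc)
  have hU := e.symm.isOpen_inter_preimage hW
  have hI := iod hU (f := fun v => e' (f (e.symm v)))
    (e'.continuousOn.comp (hc.comp_continuousOn (e.symm.continuousOn.mono inter_subset_left))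
      fun v a => a.2.2)
    fun v a w b q => e.symm.injOn a.1 b.1 (hi (e'.injOn a.2.2 b.2.2 q))
  refine mem_of_superset ((e'.isOpen_inter_preimage hI).mem_nhds ⟨b, e x, ⟨e.map_source a, ?_⟩, ?_⟩)
    ?_
  · rw [mem_preimage, e.left_inv a]
    exact ⟨hm, b⟩
  · simp only [e.left_inv a]
  · rintro y ⟨c, v, d, g⟩
    exact ⟨e.symm v, hs d.2.1, e'.injOn d.2.2 c g⟩

end Vale.Agent.P275NT
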